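import Mathlib

/-! `ℓ²`-sums of real normed spaces: squared norms, separability and reflexivity. -/

set_option autoImplicit false
open scoped ENNReal

namespace Crest.Agent.Lib.Banach

/-- Reflexivity of a real normed space: the canonical map into the bidual is onto. -/
def IsRefl (X : Type*) [NormedAddCommGroup X] [NormedSpace ℝ X] : Prop :=
  Function.Surjective (NormedSpace.inclusionInDoubleDual ℝ X)

theorem isRefl_iff {X : Type*} [NormedAddCommGroup X] [NormedSpace ℝ X] :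
    IsRefl X ↔ ∀ Ψ : StrongDual ℝ (StrongDual ℝ X), ∃ x : X, ∀ φ : StrongDual ℝ X, Ψ φ = φ x := by
  constructor
  · intro h Ψ
    obtain ⟨x, hx⟩ := h Ψ
    exact ⟨x, fun φ => by rw [← hx]; rfl⟩
  · intro h Ψ
    obtain ⟨x, hx⟩ := h Ψ
    exact ⟨x, by ext φ; rw [hx]; rfl⟩

/-- Reflexivity passes along continuous linear equivalences. -/
theorem IsRefl.of_equiv {X Y : Type*} [NormedAddCommGroup X] [NormedSpace ℝ X]
    [NormedAddCommGroup Y] [NormedSpace ℝ Y] (e : X ≃L[ℝ] Y) (h : IsRefl X) : IsRefl Y := by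
  rw [isRefl_iff] at h ⊢
  intro Ψ
  let L : StrongDual ℝ X →L[ℝ] StrongDual ℝ Y :=
    (ContinuousLinearMap.compL ℝ Y X ℝ).flip (e.symm : Y →L[ℝ] X)
  obtain ⟨x, hx⟩ := h (Ψ.comp L)
  refine ⟨e x, fun φ => ?_⟩
  have h1 := hx (φ.comp (e : X →L[ℝ] Y))
  have h2 : L (φ.comp (e : X →L[ℝ] Y)) = φ := by
    ext y; simp [L]
  rw [ContinuousLinearMap.comp_apply, h2] at h1
  simpa using h1

/-- Real Hilbert spaces are reflexive. -/
theorem isRefl_hilbert (H : Type*) [NormedAddCommGroup H] [InnerProductSpace ℝ H]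
    [CompleteSpace H] : IsRefl H := by
  rw [isRefl_iff]
  intro Ψ
  let T : H →L[ℝ] StrongDual ℝ H := innerSL ℝ
  obtain ⟨x, hx⟩ := (InnerProductSpace.toDual ℝ H).surjective (Ψ.comp T)
  refine ⟨x, fun φ => ?_⟩
  obtain ⟨y, rfl⟩ := (InnerProductSpace.toDual ℝ H).surjective φ
  have h1 : (InnerProductSpace.toDual ℝ H x) y = Ψ (T y) := by rw [hx]; rfl
  have h2 : InnerProductSpace.toDual ℝ H y = T y := by
    ext z; rfl
  rw [h2, ← h1, ← h2]
  simp only [InnerProductSpace.toDual_apply_apply]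
  exact real_inner_comm _ _

section lp
variable {ι : Type*} {X : ι → Type*} [∀ i, NormedAddCommGroup (X i)]

theorem two_toReal_pos : 0 < (2 : ℝ≥0∞).toReal := by norm_num

theorem hasSum_norm_sq (x : lp X 2) : HasSum (fun i => ‖x i‖ ^ 2) (‖x‖ ^ 2) := by
  have := lp.hasSum_norm two_toReal_pos x
  simpa using this

theorem sum_norm_sq_le (x : lp X 2) (s : Finset ι) : ∑ i ∈ s, ‖x i‖ ^ 2 ≤ ‖x‖ ^ 2 :=
  sum_le_hasSum s (fun _ _ => sq_nonneg _) (hasSum_norm_sq x)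

theorem memℓp_two_of_summable {f : ∀ i, X i} (h : Summable fun i => ‖f i‖ ^ 2) : Memℓp f 2 := by
  apply memℓp_gen
  simpa using h

theorem memℓp_two_of_sum_le {f : ∀ i, X i} {C : ℝ} (h : ∀ s : Finset ι, ∑ i ∈ s, ‖f i‖ ^ 2 ≤ C) :
    Memℓp f 2 :=
  memℓp_two_of_summable (summable_of_sum_le (fun _ => sq_nonneg _) h)

theorem norm_sum_single_sq [DecidableEq ι] (f : ∀ i, X i) (s : Finset ι) :
    ‖∑ i ∈ s, lp.single (E := X) 2 i (f i)‖ ^ 2 = ∑ i ∈ s, ‖f i‖ ^ 2 := by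
  have := lp.norm_sum_single two_toReal_pos f s
  simpa using this

variable [∀ i, NormedSpace ℝ (X i)]

/-- An `ℓ²`-sum of countably many separable spaces is separable. -/
theorem separableSpace_lp [Countable ι] [∀ i, TopologicalSpace.SeparableSpace (X i)] :
    TopologicalSpace.SeparableSpace (lp X 2) := by
  classical
  rw [← TopologicalSpace.isSeparable_univ_iff]
  have h1 : TopologicalSpace.IsSeparable
      (⋃ i, Set.range (lp.singleContinuousLinearMap ℝ X 2 i)) :=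
    TopologicalSpace.IsSeparable.iUnion fun i =>
      TopologicalSpace.isSeparable_range (lp.singleContinuousLinearMap ℝ X 2 i).continuous
  have h2 := (h1.span (R := ℝ)).closure
  refine h2.mono fun x _ => ?_
  refine mem_closure_of_tendsto (lp.hasSum_single (by simp) x) (Filter.Eventually.of_forall ?_)
  intro s
  exact Submodule.sum_mem _ fun i _ => Submodule.subset_span (Set.mem_iUnion.2 ⟨i, x i, rfl⟩)

/-- Norm of a finite sum of coordinate functionals. -/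
theorem norm_sum_comp_eval_le (ψ : ∀ i, StrongDual ℝ (X i)) (s : Finset ι) :
    ‖∑ i ∈ s, (ψ i).comp (lp.evalCLM ℝ X 2 i)‖ ≤ Real.sqrt (∑ i ∈ s, ‖ψ i‖ ^ 2) := by
  refine ContinuousLinearMap.opNorm_le_bound _ (Real.sqrt_nonneg _) fun y => ?_
  rw [sum_apply]
  calc ‖∑ i ∈ s, ((ψ i).comp (lp.evalCLM ℝ X 2 i)) y‖ ≤ ∑ i ∈ s, ‖ψ i‖ * ‖y i‖ :=
        (norm_sum_le _ _).trans (Finset.sum_le_sum fun i _ => (ψ i).le_opNorm (y i))
    _ ≤ Real.sqrt (∑ i ∈ s, ‖ψ i‖ ^ 2) * Real.sqrt (∑ i ∈ s, ‖y i‖ ^ 2) :=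
        Real.sum_mul_le_sqrt_mul_sqrt s _ _
    _ ≤ Real.sqrt (∑ i ∈ s, ‖ψ i‖ ^ 2) * ‖y‖ := by
        refine mul_le_mul_of_nonneg_left ?_ (Real.sqrt_nonneg _)
        exact Real.sqrt_le_iff.2 ⟨norm_nonneg _, sum_norm_sq_le y s⟩

theorem le_sq_of_le_mul_sqrt {S c : ℝ} (hS : 0 ≤ S) (h : S ≤ c * Real.sqrt S) : S ≤ c ^ 2 := by
  have h4 := Real.sq_sqrt hS
  have h5 := Real.sqrt_nonneg S
  set r := Real.sqrt S
  rw [← h4] at h ⊢
  nlinarith [sq_nonneg (r - c)]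

/-- The coordinate functionals of a functional on the `ℓ²`-sum are square summable. -/
theorem sum_norm_comp_single_sq_le [DecidableEq ι] (φ : StrongDual ℝ (lp X 2)) (s : Finset ι) :
    ∑ i ∈ s, ‖φ.comp (lp.singleContinuousLinearMap ℝ X 2 i)‖ ^ 2 ≤ (2 * ‖φ‖) ^ 2 := by
  set ψ : ∀ i, StrongDual ℝ (X i) := fun i => φ.comp (lp.singleContinuousLinearMap ℝ X 2 i)
    with hψ
  have hy : ∀ i, ∃ y : X i, ‖y‖ ≤ 1 ∧ ‖ψ i‖ / 2 ≤ ψ i y := by
    intro i
    rcases (norm_nonneg (ψ i)).eq_or_lt with h | h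
    · exact ⟨0, by simp, by simp [← h]⟩
    · obtain ⟨y, hy1, hy2⟩ := (ψ i).exists_lt_apply_of_lt_opNorm (half_lt_self h)
      rcases le_total 0 (ψ i y) with h' | h'
      · refine ⟨y, hy1.le, ?_⟩
        rw [Real.norm_eq_abs, abs_of_nonneg h'] at hy2
        exact hy2.le
      · refine ⟨-y, by simpa using hy1.le, ?_⟩
        rw [Real.norm_eq_abs, abs_of_nonpos h'] at hy2
        rw [map_neg]
        exact hy2.le
  choose y hy1 hy2 using hy
  refine le_sq_of_le_mul_sqrt (Finset.sum_nonneg fun i _ => sq_nonneg _) ?_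
  set z : lp X 2 := ∑ i ∈ s, lp.single (E := X) 2 i (‖ψ i‖ • y i) with hz
  have h1 : φ z = ∑ i ∈ s, ‖ψ i‖ * ψ i (y i) := by
    rw [hz, map_sum]
    refine Finset.sum_congr rfl fun i _ => ?_
    have : φ (lp.single 2 i (‖ψ i‖ • y i)) = ψ i (‖ψ i‖ • y i) := rfl
    rw [this, map_smul, smul_eq_mul]
  have h2 : ‖z‖ ≤ Real.sqrt (∑ i ∈ s, ‖ψ i‖ ^ 2) := by
    refine Real.le_sqrt_of_sq_le ?_
    rw [hz, norm_sum_single_sq]
    refine Finset.sum_le_sum fun i _ => ?_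
    rw [norm_smul, norm_norm]
    refine pow_le_pow_left₀ (by positivity) ?_ 2
    exact mul_le_of_le_one_right (norm_nonneg _) (hy1 i)
  have h3 : ∑ i ∈ s, ‖ψ i‖ ^ 2 ≤ 2 * φ z := by
    rw [h1, Finset.mul_sum]
    refine Finset.sum_le_sum fun i _ => ?_
    nlinarith [hy2 i, norm_nonneg (ψ i)]
  have h4 : φ z ≤ ‖φ‖ * ‖z‖ := (le_abs_self _).trans (φ.le_opNorm z)
  have h5 := mul_le_mul_of_nonneg_left h2 (norm_nonneg φ)
  linarith

/-- A functional on the `ℓ²`-sum is the norm-convergent sum of its coordinate functionals. -/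
theorem hasSum_comp_single_comp_eval [DecidableEq ι] (φ : StrongDual ℝ (lp X 2)) :
    HasSum (fun i => (φ.comp (lp.singleContinuousLinearMap ℝ X 2 i)).comp (lp.evalCLM ℝ X 2 i))
      φ := by
  set ψ : ∀ i, StrongDual ℝ (X i) := fun i => φ.comp (lp.singleContinuousLinearMap ℝ X 2 i)
    with hψ
  have hs : Summable fun i => ‖ψ i‖ ^ 2 :=
    summable_of_sum_le (fun _ => sq_nonneg _) (sum_norm_comp_single_sq_le φ)
  have hsum : Summable fun i => (ψ i).comp (lp.evalCLM ℝ X 2 i) := by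
    rw [summable_iff_vanishing_norm]
    intro ε hε
    obtain ⟨s, hs'⟩ := summable_iff_vanishing_norm.1 hs (ε ^ 2) (by positivity)
    refine ⟨s, fun t ht => (norm_sum_comp_eval_le ψ t).trans_lt ?_⟩
    have h1 := hs' t ht
    rw [Real.norm_eq_abs, abs_of_nonneg (Finset.sum_nonneg fun i _ => sq_nonneg _)] at h1
    exact (Real.sqrt_lt' hε).2 h1
  obtain ⟨φ', hφ'⟩ := hsum
  have : φ' = φ := by
    ext y
    have h1 := hφ'.mapL (ContinuousLinearMap.apply ℝ ℝ y)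
    have h2 := (lp.hasSum_single (by simp) y).mapL φ
    exact h1.unique h2
  rw [← this]
  exact this ▸ hφ'

/-- An `ℓ²`-sum of reflexive spaces is reflexive. -/
theorem isRefl_lp (h : ∀ i, IsRefl (X i)) : IsRefl (lp X 2) := by
  classical
  rw [isRefl_iff]
  intro Ψ
  have hx : ∀ i, ∃ x : X i, ∀ φ : StrongDual ℝ (X i),
      Ψ (φ.comp (lp.evalCLM ℝ X 2 i)) = φ x := by
    intro i
    let L : StrongDual ℝ (X i) →L[ℝ] StrongDual ℝ (lp X 2) :=
      (ContinuousLinearMap.compL ℝ (lp X 2) (X i) ℝ).flip (lp.evalCLM ℝ X 2 i)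
    obtain ⟨x, hx⟩ := isRefl_iff.1 (h i) (Ψ.comp L)
    exact ⟨x, fun φ => hx φ⟩
  choose x hx using hx
  have hb : ∀ s : Finset ι, ∑ i ∈ s, ‖x i‖ ^ 2 ≤ ‖Ψ‖ ^ 2 := by
    intro s
    have hφ : ∀ i, ∃ φ : StrongDual ℝ (X i), ‖φ‖ ≤ 1 ∧ φ (x i) = ‖x i‖ := fun i =>
      exists_dual_vector'' ℝ (x i)
    choose φ hφ1 hφ2 using hφ
    refine le_sq_of_le_mul_sqrt (Finset.sum_nonneg fun i _ => sq_nonneg _) ?_
    set Φ : StrongDual ℝ (lp X 2) := ∑ i ∈ s, (‖x i‖ • φ i).comp (lp.evalCLM ℝ X 2 i) with hΦ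
    have h1 : Ψ Φ = ∑ i ∈ s, ‖x i‖ ^ 2 := by
      rw [hΦ, map_sum]
      refine Finset.sum_congr rfl fun i _ => ?_
      rw [hx i, smul_apply, hφ2 i, smul_eq_mul, sq]
    have h2 : ‖Φ‖ ≤ Real.sqrt (∑ i ∈ s, ‖x i‖ ^ 2) := by
      refine (norm_sum_comp_eval_le (fun i => ‖x i‖ • φ i) s).trans (Real.sqrt_le_sqrt ?_)
      refine Finset.sum_le_sum fun i _ => ?_
      rw [norm_smul, norm_norm]
      refine pow_le_pow_left₀ (by positivity) ?_ 2
      exact mul_le_of_le_one_right (norm_nonneg _) (hφ1 i)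
    have h4 : Ψ Φ ≤ ‖Ψ‖ * ‖Φ‖ := (le_abs_self _).trans (Ψ.le_opNorm Φ)
    have h5 := mul_le_mul_of_nonneg_left h2 (norm_nonneg Ψ)
    linarith
  let y : lp X 2 := ⟨x, memℓp_two_of_sum_le hb⟩
  refine ⟨y, fun φ => ?_⟩
  have h1 := (hasSum_comp_single_comp_eval φ).mapL Ψ
  have h2 := (lp.hasSum_single (by simp) y).mapL φ
  refine h1.unique ?_
  convert h2 using 2 with i
  exact hx i _

end lp

end Crest.Agent.Lib.Banach
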